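import Vale.Agent.P038.H872.Shift

/-!
# Seymour's second neighbourhood conjecture
-/

namespace Vale.Agent.P038.H872

open Finset Classical

variable {V : Type*} [Fintype V]

/-- Feasible pairs for the inner problem. -/
structure Inn (D : OGraph V) (X Y : V → Finset V) : Prop where
  memX : ∀ a, a ∈ X a
  memY : ∀ a, a ∈ Y a
  ort : ∀ a b, a ≠ b → b ∈ cl D (X a) → a ∉ cl D (Y b)

theorem card_compl_int (S : Finset V) :
    ((univ.filter fun x => x ∉ S).card : ℤ) = Fintype.card V - S.card := by
  have h : (univ.filter fun x => x ∉ S) = Sᶜ := by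
    ext x
    simp
  rw [h, card_compl]
  have := card_le_univ S
  omega

/-- From an outer optimal pair to an inner pair of at most the same cost. -/
theorem outer_to_inner {D : OGraph V} {B U : V → Finset V} (hO : Opt D B U) :
    ∃ X Y, Inn D X Y ∧ ∑ a, hh D (X a) + ∑ a, hh D (Y a) ≤ cost D B U := by
  set Y : V → Finset V := fun x => univ.filter fun z => z = x ∨ x ∉ cl D (U z) with hY
  have hUU : ∀ a, a ∈ U a := fun a => hO.1.sub a (hO.1.refl a a (Or.inl rfl))
  refine ⟨MM D B, Y, ⟨?_, ?_, ?_⟩, ?_⟩
  · intro a
    exact mem_MM.2 fun c hc => hO.1.refl c a hc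
  · intro a
    simp [hY]
  · intro a b hab hb ha
    obtain ⟨y, hy, hyb⟩ := mem_cl'.1 hb
    obtain ⟨z, hz, hza⟩ := mem_cl'.1 ha
    simp only [hY, mem_filter, mem_univ, true_and] at hz
    rcases hz with rfl | hz
    · -- `z = b`, so `b → a`
      have hba : D.arc z a := by
        rcases hza with h | h
        · exact absurd h.symm hab
        · exact h
      rcases hyb with rfl | hyb
      · exact hO.1.rev a y hba (hO.1.sub a (mem_MM.1 hy a (Or.inl rfl)))
      · exact hO.1.rev z y hyb (hO.1.sub z (mem_MM.1 hy z (Or.inr hba)))
    · exact hz (mem_cl'.2 ⟨y, hO.1.sub z (mem_MM.1 hy z hza), hyb⟩)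
  · -- the cost
    have e1 : ∀ x, hh D (Y x) = ((univ.filter fun z => z ∉ Y x).card : ℤ) -
        ((univ.filter fun z => z ∉ cl D (Y x)).card : ℤ) := by
      intro x
      rw [card_compl_int, card_compl_int]
      unfold hh
      ring
    -- first part: the complements of the rows
    have e2 : ∑ x, ((univ.filter fun z => z ∉ Y x).card : ℤ) + Fintype.card V =
        ∑ z, ((cl D (U z)).card : ℤ) := by
      have h1 : ∀ x, ((univ.filter fun z => z ∉ Y x).card : ℤ) + 1 =
          ((univ.filter fun z => x ∈ cl D (U z)).card : ℤ) := by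
        intro x
        have h2 : (univ.filter fun z => x ∈ cl D (U z)) =
            insert x (univ.filter fun z => z ∉ Y x) := by
          ext z
          simp only [hY, mem_filter, mem_univ, true_and, mem_insert, not_or, not_not]
          constructor
          · intro h
            by_cases hzx : z = x
            · exact Or.inl hzx
            · exact Or.inr ⟨hzx, h⟩
          · rintro (rfl | h)
            · exact subset_cl D _ (hUU z)
            · exact h.2
        rw [h2, card_insert_of_notMem (by simp [hY])]
        push_cast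
        rfl
      have h3 : ∑ x, ((univ.filter fun z => x ∈ cl D (U z)).card : ℤ) =
          ∑ z, ((cl D (U z)).card : ℤ) := by
        have h4 : ∀ x, ((univ.filter fun z => x ∈ cl D (U z)).card : ℤ) =
            ∑ z, if x ∈ cl D (U z) then (1 : ℤ) else 0 := by
          intro x
          rw [card_filter]
          push_cast
          rfl
        simp only [h4]
        rw [sum_comm]
        apply sum_congr rfl
        intro z _
        simp
      rw [← h3, ← sum_congr rfl (fun x _ => h1 x), sum_add_distrib]
      simp
    -- second part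
    have e3 : ∑ z, ((cl D (MM D U z)).card : ℤ) ≤
        ∑ x, ((univ.filter fun z => z ∉ cl D (Y x)).card : ℤ) + Fintype.card V := by
      have h1 : ∀ x, ((univ.filter fun z => x ∈ cl D (MM D U z)).card : ℤ) ≤
          ((univ.filter fun z => z ∉ cl D (Y x)).card : ℤ) + 1 := by
        intro x
        have h2 : (univ.filter fun z => x ∈ cl D (MM D U z)) ⊆
            insert x (univ.filter fun z => z ∉ cl D (Y x)) := by
          intro z hz
          simp only [mem_filter, mem_univ, true_and, mem_insert] at hz ⊢
          by_cases hzx : z = x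
          · exact Or.inl hzx
          refine Or.inr fun hcon => ?_
          obtain ⟨y, hy, hyx⟩ := mem_cl'.1 hz
          obtain ⟨a, ha, haz⟩ := mem_cl'.1 hcon
          simp only [hY, mem_filter, mem_univ, true_and] at ha
          rcases ha with rfl | ha
          · have harc : D.arc a z := by
              rcases haz with h | h
              · exact absurd h.symm hzx
              · exact h
            rcases hyx with rfl | hyx
            · exact hO.1.rev z y harc (mem_MM.1 hy z (Or.inl rfl))
            · exact hO.1.rev a y hyx (mem_MM.1 hy a (Or.inr harc))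
          · exact ha (mem_cl'.2 ⟨y, mem_MM.1 hy a haz, hyx⟩)
        have h3 := (card_le_card h2).trans (card_insert_le _ _)
        exact_mod_cast h3
      have h3 : ∑ x, ((univ.filter fun z => x ∈ cl D (MM D U z)).card : ℤ) =
          ∑ z, ((cl D (MM D U z)).card : ℤ) := by
        have h4 : ∀ x, ((univ.filter fun z => x ∈ cl D (MM D U z)).card : ℤ) =
            ∑ z, if x ∈ cl D (MM D U z) then (1 : ℤ) else 0 := by
          intro x
          rw [card_filter]
          push_cast
          rfl
        simp only [h4]
        rw [sum_comm]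
        apply sum_congr rfl
        intro z _
        simp
      rw [← h3]
      refine (sum_le_sum fun x _ => h1 x).trans ?_
      rw [sum_add_distrib]
      simp
    have hg := gap hO
    simp only [e1]
    unfold cost
    simp only [sum_sub_distrib] at hg ⊢
    have e4 : ∑ a, hh D (U a) = ∑ a, ((cl D (U a)).card : ℤ) - ∑ a, ((U a).card : ℤ) := by
      rw [← sum_sub_distrib]
      rfl
    have e5 : ∑ a, hh D (MM D U a) =
        ∑ a, ((cl D (MM D U a)).card : ℤ) - ∑ a, ((MM D U a).card : ℤ) := by
      rw [← sum_sub_distrib]
      rfl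
    linarith

/-- From an inner pair to an outer pair. -/
theorem inner_to_outer {D : OGraph V} {X Y : V → Finset V} (hI : Inn D X Y) :
    ∃ B U, Fea D B U ∧ cost D B U ≤ ∑ a, hh D (cl D (X a)) + ∑ a, hh D (cl D (Y a)) := by
  set U : V → Finset V := fun a => univ.filter fun b => b = a ∨ a ∉ cl D (Y b) with hU
  have hrefl : ∀ a x, rr D a x → x ∈ cl D (X a) := fun a x h => mem_cl'.2 ⟨a, hI.memX a, h⟩
  have hsub : ∀ a, cl D (X a) ⊆ U a := by
    intro a b hb
    simp only [hU, mem_filter, mem_univ, true_and]
    by_cases hab : b = a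
    · exact Or.inl hab
    · exact Or.inr (hI.ort a b (fun h => hab h.symm) hb)
  refine ⟨fun a => cl D (X a), U, ⟨hrefl, hsub, ?_⟩, ?_⟩
  · intro a y h h'
    simp only [hU, mem_filter, mem_univ, true_and] at h'
    rcases h' with rfl | h'
    · exact D.loopless _ h
    · exact h' (arc_mem_cl (hI.memY y) h)
  · have e1 : ∑ a, ((U a).card : ℤ) =
        ∑ b, ((univ.filter fun a => a ∉ cl D (Y b)).card : ℤ) + Fintype.card V := by
      have h4 : ∀ a, ((U a).card : ℤ) = ∑ b, if b ∈ U a then (1 : ℤ) else 0 := by
        intro a
        simp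
      simp only [h4]
      rw [sum_comm]
      have h5 : ∀ b, (∑ a, if b ∈ U a then (1 : ℤ) else 0) =
          ((univ.filter fun a => a ∉ cl D (Y b)).card : ℤ) + 1 := by
        intro b
        have h6 : (∑ a, if b ∈ U a then (1 : ℤ) else 0) =
            ((univ.filter fun a => b ∈ U a).card : ℤ) := by
          rw [card_filter]
          push_cast
          rfl
        have h7 : (univ.filter fun a => b ∈ U a) =
            insert b (univ.filter fun a => a ∉ cl D (Y b)) := by
          ext a
          simp only [hU, mem_filter, mem_univ, true_and, mem_insert]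
          constructor
          · rintro (h | h)
            · exact Or.inl h.symm
            · exact Or.inr h
          · rintro (h | h)
            · exact Or.inl h.symm
            · exact Or.inr h
        rw [h6, h7, card_insert_of_notMem]
        · push_cast
          rfl
        · simp only [mem_filter, mem_univ, true_and, not_not]
          exact subset_cl D _ (hI.memY b)
      rw [sum_congr rfl fun b _ => h5 b, sum_add_distrib]
      simp
    have e2 : ∑ b, ((univ.filter fun a => a ∉ cl D (cl D (Y b))).card : ℤ) + Fintype.card V ≤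
        ∑ z, ((MM D U z).card : ℤ) := by
      have h4 : ∀ a, ((MM D U a).card : ℤ) = ∑ b, if b ∈ MM D U a then (1 : ℤ) else 0 := by
        intro a
        simp
      simp only [h4]
      rw [sum_comm]
      have h5 : ∀ b, ((univ.filter fun a => a ∉ cl D (cl D (Y b))).card : ℤ) + 1 ≤
          (∑ a, if b ∈ MM D U a then (1 : ℤ) else 0) := by
        intro b
        have h6 : (∑ a, if b ∈ MM D U a then (1 : ℤ) else 0) =
            ((univ.filter fun a => b ∈ MM D U a).card : ℤ) := by
          rw [card_filter]
          push_cast
          rfl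
        have h7 : insert b (univ.filter fun a => a ∉ cl D (cl D (Y b))) ⊆
            (univ.filter fun a => b ∈ MM D U a) := by
          intro z hz
          simp only [mem_filter, mem_univ, true_and, mem_insert] at hz ⊢
          rw [mem_MM]
          intro a ha
          rcases hz with rfl | hz
          · exact hsub a (hrefl a z ha)
          · simp only [hU, mem_filter, mem_univ, true_and]
            exact Or.inr fun h => hz (mem_cl'.2 ⟨a, h, ha⟩)
        have h8 := card_le_card h7
        rw [card_insert_of_notMem] at h8
        · rw [h6]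
          exact_mod_cast h8
        · simp only [mem_filter, mem_univ, true_and, not_not]
          exact subset_cl D _ (subset_cl D _ (hI.memY b))
      refine le_trans ?_ (sum_le_sum fun b _ => h5 b)
      rw [sum_add_distrib]
      simp
    have e3 : ∑ a, hh D (cl D (Y a)) =
        ∑ b, ((univ.filter fun a => a ∉ cl D (Y b)).card : ℤ) -
          ∑ b, ((univ.filter fun a => a ∉ cl D (cl D (Y b))).card : ℤ) := by
      rw [← sum_sub_distrib]
      apply sum_congr rfl
      intro b _
      rw [card_compl_int, card_compl_int]
      unfold hh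
      ring
    unfold cost
    linarith

/-- A nonempty set closed under out-neighbours which is minimal. -/
theorem exists_min_closed (D : OGraph V) [Nonempty V] :
    ∃ S : Finset V, S.Nonempty ∧ cl D S = S ∧
      ∀ T : Finset V, T.Nonempty → cl D T = T → T ⊆ S → T = S := by
  have hne : (univ.filter fun S : Finset V => S.Nonempty ∧ cl D S = S).Nonempty := by
    refine ⟨univ, ?_⟩
    simp only [mem_filter, mem_univ, true_and]
    exact ⟨univ_nonempty, Subset.antisymm (subset_univ _) (subset_cl D _)⟩
  obtain ⟨S, hS, hmin⟩ := exists_min_image _ (fun S => S.card) hne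
  simp only [mem_filter, mem_univ, true_and] at hS hmin
  exact ⟨S, hS.1, hS.2, fun T h1 h2 h3 => eq_of_subset_of_card_le h3 (hmin T ⟨h1, h2⟩)⟩

theorem closed_inter {D : OGraph V} {S T : Finset V} (hS : cl D S = S) (hT : cl D T = T) :
    cl D (S ∩ T) = S ∩ T := by
  apply Subset.antisymm _ (subset_cl D _)
  intro x hx
  rw [mem_inter]
  constructor
  · rw [← hS]
    exact cl_mono D inter_subset_left hx
  · rw [← hT]
    exact cl_mono D inter_subset_right hx

theorem no_minBad [Nonempty V] (D : OGraph V) (hD : MinBad D) : False := by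
  obtain ⟨B, U, hO⟩ := exists_opt D
  obtain ⟨X, Y, hI, hXY⟩ := outer_to_inner hO
  obtain ⟨B', U', hF, hBU⟩ := inner_to_outer hI
  have hle := hO.2 _ _ hF
  -- non strict (G)
  have hG : ∀ Z, hh D (cl D Z) ≤ hh D Z := by
    intro Z
    by_cases h : cl D Z = Z
    · rw [h]
    · exact (gee hD Z h).le
  -- all sets are closed
  have hsX : ∑ a, hh D (cl D (X a)) ≤ ∑ a, hh D (X a) := sum_le_sum fun a _ => hG _
  have hsY : ∑ a, hh D (cl D (Y a)) ≤ ∑ a, hh D (Y a) := sum_le_sum fun a _ => hG _
  have hXc : ∀ a, cl D (X a) = X a := by
    by_contra hcon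
    push Not at hcon
    obtain ⟨a, ha⟩ := hcon
    have : ∑ a, hh D (cl D (X a)) < ∑ a, hh D (X a) :=
      sum_lt_sum (fun a _ => hG _) ⟨a, mem_univ _, gee hD _ ha⟩
    linarith
  have hYc : ∀ a, cl D (Y a) = Y a := by
    by_contra hcon
    push Not at hcon
    obtain ⟨a, ha⟩ := hcon
    have : ∑ a, hh D (cl D (Y a)) < ∑ a, hh D (Y a) :=
      sum_lt_sum (fun a _ => hG _) ⟨a, mem_univ _, gee hD _ ha⟩
    linarith
  obtain ⟨S, ⟨a, ha⟩, hSc, hmin⟩ := exists_min_closed D
  have hXS : S ⊆ X a := by
    have h := hmin (S ∩ X a) ⟨a, mem_inter.2 ⟨ha, hI.memX a⟩⟩ (closed_inter hSc (hXc a))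
      inter_subset_left
    rw [← h]
    exact inter_subset_right
  have hN : (N1 D a).Nonempty := by
    rw [← card_pos]
    exact lt_of_le_of_lt (Nat.zero_le _) (hD.1 a)
  obtain ⟨b, hb⟩ := hN
  rw [mem_N1] at hb
  have hbS : b ∈ S := by
    rw [← hSc]
    exact arc_mem_cl ha hb
  have hYS : S ⊆ Y b := by
    have h := hmin (S ∩ Y b) ⟨b, mem_inter.2 ⟨hbS, hI.memY b⟩⟩ (closed_inter hSc (hYc b))
      inter_subset_left
    rw [← h]
    exact inter_subset_right
  refine hI.ort a b ?_ (subset_cl D _ (hXS hbS)) (subset_cl D _ (hYS ha))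
  rintro rfl
  exact D.loopless _ hb

/-- **Seymour's second neighbourhood conjecture.** -/
theorem snc [Nonempty V] (D : OGraph V) : ∃ v, (N1 D v).card ≤ (N2 D v).card := by
  by_contra hcon
  push Not at hcon
  obtain ⟨D', hD'⟩ := exists_minBad D hcon
  exact no_minBad D' hD'

end Vale.Agent.P038.H872
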