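import Vale.Agent.P038.Defs

/-!
# The expansion inequality (G) in an arc-minimal counterexample
-/

namespace Vale.Agent.P038.H872

open Finset Classical

variable {V : Type*} [Fintype V]

/-- The closed out-neighbourhood of a set of vertices. -/
noncomputable def cl (D : OGraph V) (X : Finset V) : Finset V :=
  univ.filter fun x => ∃ y ∈ X, y = x ∨ D.arc y x

theorem mem_cl {D : OGraph V} {X : Finset V} {x : V} :
    x ∈ cl D X ↔ ∃ y ∈ X, y = x ∨ D.arc y x := by
  simp [cl]

theorem subset_cl (D : OGraph V) (X : Finset V) : X ⊆ cl D X := fun x hx =>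
  mem_cl.2 ⟨x, hx, Or.inl rfl⟩

theorem cl_mono (D : OGraph V) {X Y : Finset V} (h : X ⊆ Y) : cl D X ⊆ cl D Y := by
  intro x hx
  obtain ⟨y, hy, h'⟩ := mem_cl.1 hx
  exact mem_cl.2 ⟨y, h hy, h'⟩

theorem arc_mem_cl {D : OGraph V} {X : Finset V} {x y : V} (hx : x ∈ X) (h : D.arc x y) :
    y ∈ cl D X := mem_cl.2 ⟨x, hx, Or.inr h⟩

theorem cl_union (D : OGraph V) (X Y : Finset V) : cl D (X ∪ Y) = cl D X ∪ cl D Y := by
  ext x
  simp only [mem_cl, mem_union]
  constructor
  · rintro ⟨y, hy | hy, h⟩
    · exact Or.inl ⟨y, hy, h⟩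
    · exact Or.inr ⟨y, hy, h⟩
  · rintro (⟨y, hy, h⟩ | ⟨y, hy, h⟩)
    · exact ⟨y, Or.inl hy, h⟩
    · exact ⟨y, Or.inr hy, h⟩

/-- The boundary function `|N[X]| - |X|`. -/
noncomputable def hh (D : OGraph V) (X : Finset V) : ℤ := (cl D X).card - X.card

theorem hh_submod (D : OGraph V) (X Y : Finset V) :
    hh D (X ∪ Y) + hh D (X ∩ Y) ≤ hh D X + hh D Y := by
  have h1 : (cl D (X ∩ Y)) ⊆ cl D X ∩ cl D Y := by
    intro x hx
    exact mem_inter.2 ⟨cl_mono D inter_subset_left hx, cl_mono D inter_subset_right hx⟩
  have h2 := card_le_card h1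
  have h3 := card_union_add_card_inter (cl D X) (cl D Y)
  have h4 := card_union_add_card_inter X Y
  unfold hh
  rw [cl_union]
  omega

/-- Counterexamples to the conjecture. -/
def Bad (D : OGraph V) : Prop := ∀ v, (N2 D v).card < (N1 D v).card

/-- The set of arcs. -/
noncomputable def arcs (D : OGraph V) : Finset (V × V) := univ.filter fun p => D.arc p.1 p.2

/-- Counterexamples with the fewest arcs. -/
def MinBad (D : OGraph V) : Prop := Bad D ∧ ∀ D' : OGraph V, Bad D' → (arcs D).card ≤ (arcs D').card

theorem exists_minBad (D : OGraph V) (h : Bad D) : ∃ D' : OGraph V, MinBad D' := by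
  have hex : ∃ n, ∃ D' : OGraph V, Bad D' ∧ (arcs D').card = n := ⟨_, D, h, rfl⟩
  obtain ⟨D', hD', hn⟩ := Nat.find_spec hex
  refine ⟨D', hD', fun D'' h'' => ?_⟩
  rw [hn]
  exact Nat.find_min' hex ⟨D'', h'', rfl⟩

/-- Delete all arcs from `X` to the outside of `X ∪ T`. -/
def del (D : OGraph V) (X T : Finset V) : OGraph V where
  arc a b := D.arc a b ∧ ¬ (a ∈ X ∧ b ∉ X ∧ b ∉ T)
  loopless v h := D.loopless v h.1
  asymm u v h h' := D.asymm u v h.1 h'.1

theorem del_arc {D : OGraph V} {X T : Finset V} {a b : V} :
    (del D X T).arc a b ↔ D.arc a b ∧ ¬ (a ∈ X ∧ b ∉ X ∧ b ∉ T) := Iff.rfl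

/-- The inequality (G) of helper294: in an arc-minimal counterexample the boundary of a set strictly
decreases when the set is replaced by its closed out-neighbourhood. -/
theorem gee {D : OGraph V} (hD : MinBad D) (X : Finset V) (hX : cl D X ≠ X) :
    hh D (cl D X) < hh D X := by
  by_contra hcon
  push Not at hcon
  set L := cl D X \ X with hL
  have hLne : L.Nonempty := by
    rw [hL, sdiff_nonempty]
    intro h
    exact hX (Subset.antisymm h (subset_cl D X))
  set d : Finset V → ℤ := fun T => ((cl D T \ X).card : ℤ) - 2 * T.card with hd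
  -- d L ≥ 0
  have hdL : 0 ≤ d L := by
    have h1 : cl D (cl D X) \ X ⊆ cl D L \ X := by
      intro x hx
      rw [mem_sdiff] at hx ⊢
      refine ⟨?_, hx.2⟩
      obtain ⟨y, hy, h⟩ := mem_cl.1 hx.1
      by_cases hyX : y ∈ X
      · have : x ∈ cl D X := mem_cl.2 ⟨y, hyX, h⟩
        exact subset_cl D L (mem_sdiff.2 ⟨this, hx.2⟩)
      · exact mem_cl.2 ⟨y, mem_sdiff.2 ⟨hy, hyX⟩, h⟩
    have h2 := card_le_card h1
    have h3 : (cl D (cl D X) \ X).card = (cl D (cl D X)).card - X.card :=
      card_sdiff_of_subset ((subset_cl D X).trans (subset_cl D _))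
    have h4 : L.card = (cl D X).card - X.card := card_sdiff_of_subset (subset_cl D X)
    have h5 := card_le_card (subset_cl D X)
    have h6 := card_le_card (subset_cl D (cl D X))
    simp only [hd]
    unfold hh at hcon
    omega
  -- choose `T`
  obtain ⟨T, hT, hTmin⟩ := exists_min_image L.ssubsets d
    ⟨∅, by rw [mem_ssubsets]; exact ⟨empty_subset _, fun h => by
      obtain ⟨x, hx⟩ := hLne
      exact absurd (h hx) (notMem_empty x)⟩⟩
  rw [mem_ssubsets] at hT
  have hd0 : d ∅ = 0 := by
    simp only [hd]
    have : cl D ∅ = ∅ := by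
      ext x
      simp [mem_cl]
    rw [this]
    simp
  have hempty : (∅ : Finset V) ∈ L.ssubsets := by
    rw [mem_ssubsets]
    exact ⟨empty_subset _, fun h => by
      obtain ⟨x, hx⟩ := hLne
      exact absurd (h hx) (notMem_empty x)⟩
  have hTall : ∀ T' ⊆ L, d T ≤ d T' := by
    intro T' hT'
    by_cases h : T' = L
    · subst h
      have := hTmin ∅ hempty
      rw [hd0] at this
      omega
    · exact hTmin T' (mem_ssubsets.2 (lt_of_le_of_ne hT' h))
  -- the smaller graph
  have hcard : (arcs (del D X T)).card < (arcs D).card := by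
    apply card_lt_card
    refine ⟨?_, ?_⟩
    · intro p hp
      simp only [arcs, mem_filter, mem_univ, true_and] at hp ⊢
      exact hp.1
    · intro hsub
      obtain ⟨l, hlL, hlT⟩ := exists_of_ssubset hT
      rw [hL, mem_sdiff] at hlL
      obtain ⟨y, hy, h⟩ := mem_cl.1 hlL.1
      have harc : D.arc y l := by
        rcases h with h | h
        · exact absurd (h ▸ hy) hlL.2
        · exact h
      have h1 : (y, l) ∈ arcs D := by
        simp only [arcs, mem_filter, mem_univ, true_and]
        exact harc
      have h2 := hsub h1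
      simp only [arcs, mem_filter, mem_univ, true_and] at h2
      exact h2.2 ⟨hy, hlL.2, hlT⟩
  have hbad : Bad (del D X T) := by
    intro v
    by_cases hvX : v ∈ X
    · set Dv := N1 D v \ (X ∪ T) with hDv
      set E := cl D Dv \ (cl D T ∪ X) with hE
      have hN1 : N1 (del D X T) v = N1 D v \ Dv := by
        ext x
        simp only [mem_N1, del_arc, hDv, mem_sdiff, mem_union]
        tauto
      have hDvsub : Dv ⊆ N1 D v := sdiff_subset
      have hDvL : T ∪ Dv ⊆ L := by
        apply union_subset hT.1
        intro x hx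
        rw [hDv, mem_sdiff, mem_N1, mem_union] at hx
        push Not at hx
        exact mem_sdiff.2 ⟨arc_mem_cl hvX hx.1, hx.2.1⟩
      have hEcard : 2 * Dv.card ≤ E.card := by
        have h1 := hTall _ hDvL
        have h2 : (T ∪ Dv).card = T.card + Dv.card := by
          apply card_union_of_disjoint
          rw [disjoint_left]
          intro x hx hx'
          rw [hDv, mem_sdiff, mem_union] at hx'
          exact hx'.2 (Or.inr hx)
        have h3 : cl D (T ∪ Dv) \ X ⊆ (cl D T \ X) ∪ E := by
          intro x hx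
          rw [cl_union, mem_sdiff, mem_union] at hx
          rw [mem_union, hE, mem_sdiff, mem_sdiff, mem_union]
          tauto
        have h4 := (card_le_card h3).trans (card_union_le _ _)
        simp only [hd] at h1
        omega
      have hdisj : Disjoint (N2 (del D X T) v) E := by
        rw [disjoint_left]
        intro x hx hxE
        rw [hE, mem_sdiff, mem_union] at hxE
        push Not at hxE
        obtain ⟨-, -, u, h1, h2⟩ := mem_N2.1 hx
        rw [del_arc] at h1 h2
        by_cases huX : u ∈ X
        · have h3 : x ∈ X ∨ x ∈ T := by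
            by_contra hn
            push Not at hn
            exact h2.2 ⟨huX, hn.1, hn.2⟩
          rcases h3 with h3 | h3
          · exact hxE.2.2 h3
          · exact hxE.2.1 (subset_cl D T h3)
        · have huT : u ∈ T := by
            by_contra hn
            exact h1.2 ⟨hvX, huX, hn⟩
          exact hxE.2.1 (arc_mem_cl huT h2.1)
      have hsub1 : N2 (del D X T) v ∪ E ⊆ N2 D v ∪ Dv := by
        intro x hx
        rcases mem_union.1 hx with hx | hx
        · obtain ⟨h0, h3, u, h1, h2⟩ := mem_N2.1 hx
          rw [del_arc] at h1 h2 h3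
          by_cases hvx : D.arc v x
          · have hxx : x ∉ X ∧ x ∉ T := by
              by_contra hn
              exact h3 ⟨hvx, fun h => hn h.2⟩
            exact mem_union_right _ (mem_sdiff.2 ⟨mem_N1.2 hvx, fun h => by
              rcases mem_union.1 h with h | h
              · exact hxx.1 h
              · exact hxx.2 h⟩)
          · exact mem_union_left _ (mem_N2.2 ⟨h0, hvx, u, h1.1, h2.1⟩)
        · rw [hE, mem_sdiff, mem_union] at hx
          push Not at hx
          obtain ⟨hx1, hx2, hx3⟩ := hx
          have hxT : x ∉ T := fun h => hx2 (subset_cl D T h)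
          obtain ⟨y, hy, h⟩ := mem_cl.1 hx1
          rcases h with h | h
          · exact mem_union_right _ (h ▸ hy)
          · have hvy : D.arc v y := mem_N1.1 (hDvsub hy)
            by_cases hvx : D.arc v x
            · exact mem_union_right _ (mem_sdiff.2 ⟨mem_N1.2 hvx, fun h => by
                rcases mem_union.1 h with h | h
                · exact hx3 h
                · exact hxT h⟩)
            · exact mem_union_left _ (mem_N2.2 ⟨fun h => hx3 (h ▸ hvX), hvx, y, hvy, h⟩)
      have hc1 := card_union_of_disjoint hdisj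
      have hc2 := (card_le_card hsub1).trans (card_union_le _ _)
      have hc3 : (N1 (del D X T) v).card = (N1 D v).card - Dv.card := by
        rw [hN1, card_sdiff_of_subset hDvsub]
      have hc4 := card_le_card hDvsub
      have hc5 := hD.1 v
      omega
    · have hN1 : N1 (del D X T) v = N1 D v := by
        ext x
        simp only [mem_N1, del_arc]
        tauto
      have hN2 : N2 (del D X T) v ⊆ N2 D v := by
        intro x hx
        obtain ⟨h0, h3, u, h1, h2⟩ := mem_N2.1 hx
        rw [del_arc] at h1 h2 h3
        refine mem_N2.2 ⟨h0, fun h => h3 ⟨h, fun h' => hvX h'.1⟩, u, h1.1, h2.1⟩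
      rw [hN1]
      exact (card_le_card hN2).trans_lt (hD.1 v)
  exact absurd (hD.2 _ hbad) (not_le.2 hcard)

end Vale.Agent.P038.H872
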