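import Vale.Agent.P038.H872.Gee
import Mathlib.Combinatorics.Hall.Basic

/-!
# The two min cut problems and the gap inequality
-/

namespace Vale.Agent.P038.H872

open Finset Classical

variable {V : Type*} [Fintype V]

/-- Reflexive arcs. -/
def rr (D : OGraph V) (a b : V) : Prop := a = b ∨ D.arc a b

theorem mem_cl' {D : OGraph V} {X : Finset V} {x : V} :
    x ∈ cl D X ↔ ∃ y ∈ X, rr D y x := mem_cl

/-- Feasible pairs for the outer problem. -/
structure Fea (D : OGraph V) (B U : V → Finset V) : Prop where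
  refl : ∀ a x, rr D a x → x ∈ B a
  sub : ∀ a, B a ⊆ U a
  rev : ∀ a y, D.arc y a → y ∉ U a

/-- The intersection of the rows over the closed in-neighbourhood. -/
noncomputable def MM (D : OGraph V) (U : V → Finset V) (z : V) : Finset V :=
  univ.filter fun x => ∀ a, rr D a z → x ∈ U a

theorem mem_MM {D : OGraph V} {U : V → Finset V} {z x : V} :
    x ∈ MM D U z ↔ ∀ a, rr D a z → x ∈ U a := by
  simp [MM]

theorem MM_sub {D : OGraph V} {U : V → Finset V} {a z : V} (h : rr D a z) : MM D U z ⊆ U a :=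
  fun _ hx => mem_MM.1 hx a h

theorem MM_mono {D : OGraph V} {B U : V → Finset V} (h : ∀ a, B a ⊆ U a) (z : V) :
    MM D B z ⊆ MM D U z := fun _ hx => mem_MM.2 fun a ha => h a (mem_MM.1 hx a ha)

/-- The cost of a pair in the outer problem. -/
noncomputable def cost (D : OGraph V) (B U : V → Finset V) : ℤ :=
  ∑ a, hh D (B a) + ∑ a, ((U a).card : ℤ) - ∑ z, ((MM D U z).card : ℤ)

/-- Optimal pairs of the outer problem. -/
def Opt (D : OGraph V) (B U : V → Finset V) : Prop :=
  Fea D B U ∧ ∀ B' U', Fea D B' U' → cost D B U ≤ cost D B' U'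

theorem exists_opt (D : OGraph V) : ∃ B U, Opt D B U := by
  have hne : (univ.filter fun p : (V → Finset V) × (V → Finset V) => Fea D p.1 p.2).Nonempty := by
    refine ⟨(fun a => cl D {a}, fun a => cl D {a}), ?_⟩
    simp only [mem_filter, mem_univ, true_and]
    refine ⟨?_, fun a => Subset.refl _, ?_⟩
    · intro a x h
      exact mem_cl'.2 ⟨a, mem_singleton_self a, h⟩
    · intro a y h h'
      obtain ⟨z, hz, h''⟩ := mem_cl'.1 h'
      rw [mem_singleton] at hz
      subst hz
      rcases h'' with h'' | h''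
      · subst h''
        exact D.loopless _ h
      · exact D.asymm _ _ h h''
  obtain ⟨p, hp, hmin⟩ := exists_min_image _ (fun p => cost D p.1 p.2) hne
  simp only [mem_filter, mem_univ, true_and] at hp hmin
  exact ⟨p.1, p.2, hp, fun B' U' h => hmin (B', U') h⟩

section Optimal

variable {D : OGraph V} {B U : V → Finset V}

/-- Row optimality. -/
theorem row_opt (hO : Opt D B U) (a : V) (Y : Finset V) (h1 : B a ⊆ Y) (h2 : Y ⊆ U a) :
    hh D (B a) ≤ hh D Y := by
  have hF : Fea D (Function.update B a Y) U := by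
    refine ⟨?_, ?_, hO.1.rev⟩
    · intro b x h
      by_cases hb : b = a
      · subst hb
        rw [Function.update_self]
        exact h1 (hO.1.refl _ _ h)
      · rw [Function.update_of_ne hb]
        exact hO.1.refl _ _ h
    · intro b
      by_cases hb : b = a
      · subst hb
        rw [Function.update_self]
        exact h2
      · rw [Function.update_of_ne hb]
        exact hO.1.sub b
  have h3 := hO.2 _ _ hF
  unfold cost at h3
  have h4 : ∑ b, hh D (Function.update B a Y b) - ∑ b, hh D (B b) = hh D Y - hh D (B a) := by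
    rw [← sum_sub_distrib, sum_eq_single a]
    · rw [Function.update_self]
    · intro b _ hb
      rw [Function.update_of_ne hb, sub_self]
    · intro h
      exact absurd (mem_univ a) h
  omega

/-- Column optimality. -/
theorem col_opt (hO : Opt D B U) (b : V) (S : Finset V) (hS : ∀ a ∈ S, b ∈ U a ∧ b ∉ B a) :
    S.card ≤ (univ.filter fun z => b ∈ MM D U z ∧ ∃ a ∈ S, rr D a z).card := by
  set U' : V → Finset V := fun a => if a ∈ S then (U a).erase b else U a with hU'
  have hsub : ∀ a, U' a ⊆ U a := by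
    intro a
    simp only [hU']
    split_ifs
    · exact erase_subset _ _
    · exact Subset.refl _
  have hF : Fea D B U' := by
    refine ⟨hO.1.refl, ?_, ?_⟩
    · intro a
      simp only [hU']
      split_ifs with h
      · exact subset_erase.2 ⟨hO.1.sub a, (hS a h).2⟩
      · exact hO.1.sub a
    · intro a y h h'
      exact hO.1.rev a y h (hsub a h')
  have h3 := hO.2 _ _ hF
  unfold cost at h3
  have h4 : ∑ a, ((U' a).card : ℤ) + S.card = ∑ a, ((U a).card : ℤ) := by
    have : (S.card : ℤ) = ∑ a, if a ∈ S then (1 : ℤ) else 0 := by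
      simp
    rw [this, ← sum_add_distrib]
    apply sum_congr rfl
    intro a _
    simp only [hU']
    split_ifs with h
    · have := card_erase_add_one (hS a h).1
      push_cast [← this]
      ring
    · simp
  have h5 : ∑ z, ((MM D U z).card : ℤ) ≤ ∑ z, ((MM D U' z).card : ℤ) +
      (univ.filter fun z => b ∈ MM D U z ∧ ∃ a ∈ S, rr D a z).card := by
    have : (((univ.filter fun z => b ∈ MM D U z ∧ ∃ a ∈ S, rr D a z).card : ℕ) : ℤ) =
        ∑ z, if (b ∈ MM D U z ∧ ∃ a ∈ S, rr D a z) then (1 : ℤ) else 0 := by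
      rw [card_filter]
      push_cast
      rfl
    rw [this, ← sum_add_distrib]
    apply sum_le_sum
    intro z _
    split_ifs with h
    · have h6 : MM D U z ⊆ MM D U' z ∪ {b} := by
        intro x hx
        by_cases hxb : x = b
        · exact mem_union_right _ (mem_singleton.2 hxb)
        · apply mem_union_left
          rw [mem_MM] at hx ⊢
          intro a ha
          simp only [hU']
          split_ifs
          · exact mem_erase.2 ⟨hxb, hx a ha⟩
          · exact hx a ha
      have h7 := (card_le_card h6).trans (card_union_le _ _)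
      rw [card_singleton] at h7
      exact_mod_cast h7
    · have h6 : MM D U z ⊆ MM D U' z := by
        intro x hx
        have hx' := hx
        rw [mem_MM] at hx ⊢
        intro a ha
        simp only [hU']
        split_ifs with haS
        · refine mem_erase.2 ⟨?_, hx a ha⟩
          rintro rfl
          exact h ⟨hx', a, haS, ha⟩
        · exact hx a ha
      have h7 := card_le_card h6
      rw [add_zero]
      exact_mod_cast h7
  omega

/-- The rows `m_z` are optimal between `m_z` and `M_z`. -/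
theorem low_opt (hO : Opt D B U) (z : V) (Y : Finset V) (h1 : MM D B z ⊆ Y) (h2 : Y ⊆ MM D U z) :
    hh D (MM D B z) ≤ hh D Y := by
  have key : ∀ S : Finset V, (∀ a ∈ S, rr D a z) →
      hh D (univ.filter fun x => x ∈ Y ∧ ∀ a ∈ S, x ∈ B a) ≤ hh D Y := by
    intro S
    induction S using Finset.induction_on with
    | empty =>
      intro _
      have : (univ.filter fun x => x ∈ Y ∧ ∀ a ∈ (∅ : Finset V), x ∈ B a) = Y := by
        ext x
        simp
      rw [this]
    | insert a S ha ih =>
      intro hS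
      have h3 := ih fun c hc => hS c (mem_insert_of_mem hc)
      set Y' := univ.filter fun x => x ∈ Y ∧ ∀ a ∈ S, x ∈ B a with hY'
      have h4 : (univ.filter fun x => x ∈ Y ∧ ∀ c ∈ insert a S, x ∈ B c) = Y' ∩ B a := by
        ext x
        simp only [hY', mem_filter, mem_univ, true_and, mem_inter, mem_insert, forall_eq_or_imp]
        tauto
      rw [h4]
      have h5 := hh_submod D Y' (B a)
      have h6 : hh D (B a) ≤ hh D (Y' ∪ B a) := by
        apply row_opt hO a _ subset_union_right
        apply union_subset _ (hO.1.sub a)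
        intro x hx
        simp only [hY', mem_filter, mem_univ, true_and] at hx
        exact MM_sub (hS a (mem_insert_self a S)) (h2 hx.1)
      linarith
  have h3 := key (univ.filter fun a => rr D a z) (by simp)
  have h4 : (univ.filter fun x => x ∈ Y ∧ ∀ a ∈ (univ.filter fun a => rr D a z), x ∈ B a) =
      MM D B z := by
    ext x
    simp only [mem_filter, mem_univ, true_and, mem_MM]
    constructor
    · intro h
      exact h.2
    · intro h
      exact ⟨h1 (mem_MM.2 h), h⟩
  rw [h4] at h3
  exact h3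

end Optimal

/-- The sets between `P ∪ (W ∩ Q)` and `Q`. -/
noncomputable def fam (P Q W : Finset V) : Finset (Finset V) :=
  Q.powerset.filter fun Y => P ∪ (W ∩ Q) ⊆ Y

omit [Fintype V] in
theorem mem_fam {P Q W Y : Finset V} : Y ∈ fam P Q W ↔ Y ⊆ Q ∧ P ∪ (W ∩ Q) ⊆ Y := by
  simp [fam]

omit [Fintype V] in
theorem fam_nonempty {P Q W : Finset V} (h : P ⊆ Q) : (fam P Q W).Nonempty :=
  ⟨Q, mem_fam.2 ⟨Subset.refl _, union_subset h inter_subset_right⟩⟩

/-- The minimum of the boundary function over the sets between `P ∪ (W ∩ Q)` and `Q`. -/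
noncomputable def kk (D : OGraph V) (P Q W : Finset V) (h : P ⊆ Q) : ℤ :=
  (fam P Q W).inf' (fam_nonempty h) (hh D)

theorem kk_le {D : OGraph V} {P Q W Y : Finset V} (h : P ⊆ Q) (h1 : P ⊆ Y) (h2 : W ∩ Q ⊆ Y)
    (h3 : Y ⊆ Q) : kk D P Q W h ≤ hh D Y :=
  inf'_le _ (mem_fam.2 ⟨h3, union_subset h1 h2⟩)

theorem exists_kk {D : OGraph V} {P Q W : Finset V} (h : P ⊆ Q) :
    ∃ Y, P ⊆ Y ∧ W ∩ Q ⊆ Y ∧ Y ⊆ Q ∧ kk D P Q W h = hh D Y := by
  obtain ⟨Y, hY, h'⟩ := exists_mem_eq_inf' (s := fam P Q W) (fam_nonempty h) (hh D)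
  rw [mem_fam] at hY
  have h1 : P ∪ (W ∩ Q) ⊆ Y := hY.2
  exact ⟨Y, subset_union_left.trans h1, subset_union_right.trans h1, hY.1, h'⟩

theorem kk_mono {D : OGraph V} {P Q W W' : Finset V} (h : P ⊆ Q) (hW : W ⊆ W') :
    kk D P Q W h ≤ kk D P Q W' h := by
  obtain ⟨Y, h1, h2, h3, h4⟩ := exists_kk (D := D) (W := W') h
  rw [h4]
  exact kk_le h h1 ((inter_subset_inter_right hW).trans h2) h3

theorem kk_univ {D : OGraph V} {P Q : Finset V} (h : P ⊆ Q) : kk D P Q univ h = hh D Q := by
  obtain ⟨Y, h1, h2, h3, h4⟩ := exists_kk (D := D) (W := univ) h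
  rw [univ_inter] at h2
  rw [h4, Subset.antisymm h3 h2]

theorem kk_insert_of {D : OGraph V} {P Q W : Finset V} {b : V} (h : P ⊆ Q)
    (hb : ¬ (b ∈ Q ∧ b ∉ P)) : kk D P Q (insert b W) h = kk D P Q W h := by
  apply le_antisymm _ (kk_mono h (subset_insert _ _))
  obtain ⟨Y, h1, h2, h3, h4⟩ := exists_kk (D := D) (W := W) h
  rw [h4]
  apply kk_le h h1 _ h3
  intro x hx
  rw [mem_inter, mem_insert] at hx
  rcases hx with ⟨rfl | hx, hx'⟩
  · have : x ∈ P := by
      by_contra hn
      exact hb ⟨hx', hn⟩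
    exact h1 this
  · exact h2 (mem_inter.2 ⟨hx, hx'⟩)

section Optimal

variable {D : OGraph V} {B U : V → Finset V}

theorem incr_le (hO : Opt D B U) {a z b : V} (haz : rr D a z) (hb : b ∈ MM D U z)
    (W : Finset V) :
    kk D (B a) (U a) (insert b W) (hO.1.sub a) - kk D (B a) (U a) W (hO.1.sub a) ≤
      kk D (MM D B z) (MM D U z) (insert b W) (MM_mono hO.1.sub z) -
        kk D (MM D B z) (MM D U z) W (MM_mono hO.1.sub z) := by
  obtain ⟨Y, h1, h2, h3, h4⟩ := exists_kk (D := D) (W := insert b W) (MM_mono hO.1.sub z)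
  obtain ⟨Y', h1', h2', h3', h4'⟩ := exists_kk (D := D) (W := W) (hO.1.sub a)
  have hMU : MM D U z ⊆ U a := MM_sub haz
  have hMB : MM D B z ⊆ B a := MM_sub haz
  have h5 : kk D (B a) (U a) (insert b W) (hO.1.sub a) ≤ hh D (Y ∪ Y') := by
    apply kk_le
    · exact h1'.trans subset_union_right
    · intro x hx
      rw [mem_inter, mem_insert] at hx
      rcases hx with ⟨rfl | hx, hx'⟩
      · exact mem_union_left _ (h2 (mem_inter.2 ⟨mem_insert_self _ _, hb⟩))
      · exact mem_union_right _ (h2' (mem_inter.2 ⟨hx, hx'⟩))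
    · exact union_subset (h3.trans hMU) h3'
  have h6 : kk D (MM D B z) (MM D U z) W (MM_mono hO.1.sub z) ≤ hh D (Y ∩ Y') := by
    apply kk_le
    · exact subset_inter h1 (hMB.trans h1')
    · apply subset_inter
      · exact (inter_subset_inter_right (subset_insert _ _)).trans h2
      · exact (inter_subset_inter_left hMU).trans h2'
    · exact inter_subset_left.trans h3
  have h7 := hh_submod D Y Y'
  linarith

theorem incr_sum_le (hO : Opt D B U) (b : V) (W : Finset V) :
    ∑ a, (kk D (B a) (U a) (insert b W) (hO.1.sub a) - kk D (B a) (U a) W (hO.1.sub a)) ≤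
      ∑ z, (kk D (MM D B z) (MM D U z) (insert b W) (MM_mono hO.1.sub z) -
        kk D (MM D B z) (MM D U z) W (MM_mono hO.1.sub z)) := by
  set α : V → ℤ := fun a =>
    kk D (B a) (U a) (insert b W) (hO.1.sub a) - kk D (B a) (U a) W (hO.1.sub a) with hα
  set γ : V → ℤ := fun z =>
    kk D (MM D B z) (MM D U z) (insert b W) (MM_mono hO.1.sub z) -
        kk D (MM D B z) (MM D U z) W (MM_mono hO.1.sub z) with hγ
  have hγ0 : ∀ z, 0 ≤ γ z := fun z => sub_nonneg.2 (kk_mono _ (subset_insert _ _))
  have hα0 : ∀ a, ¬ (b ∈ U a ∧ b ∉ B a) → α a = 0 := by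
    intro a ha
    simp only [hα]
    rw [kk_insert_of _ ha, sub_self]
  have hαγ : ∀ a z, rr D a z → b ∈ MM D U z → α a ≤ γ z := fun a z h h' => incr_le hO h h' W
  -- Hall
  let t : {a // b ∈ U a ∧ b ∉ B a} → Finset V := fun a =>
    univ.filter fun z => b ∈ MM D U z ∧ rr D a.1 z
  have hall : ∀ s : Finset {a // b ∈ U a ∧ b ∉ B a}, s.card ≤ (s.biUnion t).card := by
    intro s
    have h1 := col_opt hO b (s.map (Function.Embedding.subtype _)) (by
      intro a ha
      rw [mem_map] at ha
      obtain ⟨c, _, rfl⟩ := ha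
      exact c.2)
    rw [card_map] at h1
    refine h1.trans (card_le_card ?_)
    intro z hz
    simp only [mem_filter, mem_univ, true_and, mem_map, mem_biUnion, t] at hz ⊢
    obtain ⟨hz1, a, ⟨c, hc, rfl⟩, ha⟩ := hz
    exact ⟨c, hc, hz1, ha⟩
  obtain ⟨φ, hφinj, hφ⟩ := (Finset.all_card_le_biUnion_card_iff_exists_injective t).1 hall
  have h1 : ∑ a, α a = ∑ a : {a // b ∈ U a ∧ b ∉ B a}, α a.1 := by
    rw [← sum_filter_add_sum_filter_not univ (fun a => b ∈ U a ∧ b ∉ B a) α]
    have h2 : ∑ x ∈ univ.filter (fun x => ¬ (b ∈ U x ∧ b ∉ B x)), α x = 0 := by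
      apply sum_eq_zero
      intro a ha
      exact hα0 a (mem_filter.1 ha).2
    rw [h2, add_zero]
    exact Finset.sum_subtype _ (by simp) α
  rw [h1]
  calc ∑ a : {a // b ∈ U a ∧ b ∉ B a}, α a.1 ≤ ∑ a : {a // b ∈ U a ∧ b ∉ B a}, γ (φ a) := by
        apply sum_le_sum
        intro a _
        have h2 := hφ a
        simp only [mem_filter, mem_univ, true_and, t] at h2
        exact hαγ _ _ h2.2 h2.1
    _ = ∑ z ∈ univ.map ⟨φ, hφinj⟩, γ z := by
        rw [sum_map]
        rfl
    _ ≤ ∑ z, γ z := sum_le_univ_sum_of_nonneg hγ0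

/-- **The gap inequality.** -/
theorem gap (hO : Opt D B U) :
    ∑ a, (hh D (U a) - hh D (B a)) ≤ ∑ z, (hh D (MM D U z) - hh D (MM D B z)) := by
  have key : ∀ W : Finset V,
      ∑ a, (kk D (B a) (U a) W (hO.1.sub a) - hh D (B a)) ≤
        ∑ z, (kk D (MM D B z) (MM D U z) W (MM_mono hO.1.sub z) - hh D (MM D B z)) := by
    intro W
    induction W using Finset.induction_on with
    | empty =>
      apply (sum_nonpos (s := univ) (f := fun a =>
        kk D (B a) (U a) ∅ (hO.1.sub a) - hh D (B a)) _).trans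
      · apply sum_nonneg
        intro z _
        obtain ⟨Y, h1, h2, h3, h4⟩ := exists_kk (D := D) (W := ∅) (MM_mono hO.1.sub z)
        rw [h4]
        exact sub_nonneg.2 (low_opt hO z Y h1 h3)
      · intro a _
        exact sub_nonpos.2 (kk_le _ (Subset.refl _) (by simp) (hO.1.sub a))
    | insert b W hb ih =>
      have h1 := incr_sum_le hO b W
      simp only [sum_sub_distrib] at h1 ih ⊢
      linarith
  have h := key univ
  simp only [kk_univ] at h
  exact h

end Optimal

end Vale.Agent.P038.H872
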